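import Mathlib

/-!
# Injective holomorphic maps: non-vanishing derivative and holomorphic inverse
-/

open Set Filter Topology

namespace Crest.Agent.Lib.RMT

/-- An injective function on an open set is not locally constant at a point of the set. -/
theorem not_eventually_const_of_injOn {U : Set ℂ} (hU : IsOpen U) {f : ℂ → ℂ}
    (hinj : InjOn f U) {z : ℂ} (hz : z ∈ U) : ¬ ∀ᶠ w in 𝓝 z, f w = f z := by
  intro h
  have h1 : ∀ᶠ w in 𝓝[≠] z, f w = f z ∧ w ∈ U :=
    (h.and (hU.mem_nhds hz)).filter_mono nhdsWithin_le_nhds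
  obtain ⟨w, ⟨hw1, hw2⟩, hw3⟩ := (h1.and self_mem_nhdsWithin).exists
  exact hw3 (hinj hw2 hz hw1)

/-- Local form of the open mapping theorem for an injective holomorphic map. -/
theorem nhds_le_map_of_injOn {U : Set ℂ} (hU : IsOpen U) {f : ℂ → ℂ}
    (hf : DifferentiableOn ℂ f U) (hinj : InjOn f U) {z : ℂ} (hz : z ∈ U) :
    𝓝 (f z) ≤ map f (𝓝 z) :=
  ((hf.analyticAt (hU.mem_nhds hz)).eventually_constant_or_nhds_le_map_nhds).resolve_left
    (not_eventually_const_of_injOn hU hinj hz)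

theorem isOpen_image_of_injOn {U : Set ℂ} (hU : IsOpen U) {f : ℂ → ℂ}
    (hf : DifferentiableOn ℂ f U) (hinj : InjOn f U) : IsOpen (f '' U) := by
  rw [isOpen_iff_mem_nhds]
  rintro _ ⟨z, hz, rfl⟩
  exact nhds_le_map_of_injOn hU hf hinj hz (image_mem_map (hU.mem_nhds hz))

theorem continuousAt_invFunOn_of_injOn {U : Set ℂ} (hU : IsOpen U) {f : ℂ → ℂ}
    (hf : DifferentiableOn ℂ f U) (hinj : InjOn f U) {z : ℂ} (hz : z ∈ U) :
    ContinuousAt (Function.invFunOn f U) (f z) := by
  have hl : LeftInvOn (Function.invFunOn f U) f U := hinj.leftInvOn_invFunOn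
  unfold ContinuousAt
  rw [hl hz]
  refine Tendsto.mono_left ?_ (nhds_le_map_of_injOn hU hf hinj hz)
  rw [tendsto_map'_iff]
  refine tendsto_id.congr' ?_
  filter_upwards [hU.mem_nhds hz] with w hw using (hl hw).symm

/-- The zeros of the derivative of an injective holomorphic map are isolated. -/
theorem eventually_deriv_ne_zero_of_injOn {U : Set ℂ} (hU : IsOpen U) {f : ℂ → ℂ}
    (hf : DifferentiableOn ℂ f U) (hinj : InjOn f U) {z : ℂ} (hz : z ∈ U) :
    ∀ᶠ w in 𝓝[≠] z, deriv f w ≠ 0 := by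
  have ha : AnalyticAt ℂ f z := hf.analyticAt (hU.mem_nhds hz)
  refine ha.deriv.eventually_eq_zero_or_eventually_ne_zero.resolve_left fun h => ?_
  apply not_eventually_const_of_injOn hU hinj hz
  obtain ⟨r, hr, hball⟩ := Metric.eventually_nhds_iff_ball.1 (h.and (hU.mem_nhds hz))
  filter_upwards [Metric.ball_mem_nhds z hr] with w hw
  refine IsOpen.is_const_of_deriv_eq_zero (𝕜 := ℂ) Metric.isOpen_ball
    (convex_ball z r).isPreconnected (hf.mono fun y hy => (hball y hy).2)
    (fun y hy => (hball y hy).1) hw (Metric.mem_ball_self hr)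

theorem differentiableAt_invFunOn_of_deriv_ne_zero {U : Set ℂ} (hU : IsOpen U) {f : ℂ → ℂ}
    (hf : DifferentiableOn ℂ f U) (hinj : InjOn f U) {z : ℂ} (hz : z ∈ U)
    (hd : deriv f z ≠ 0) : DifferentiableAt ℂ (Function.invFunOn f U) (f z) := by
  have hl : LeftInvOn (Function.invFunOn f U) f U := hinj.leftInvOn_invFunOn
  have h1 : HasDerivAt f (deriv f z) (Function.invFunOn f U (f z)) := by
    rw [hl hz]
    exact (hf.differentiableAt (hU.mem_nhds hz)).hasDerivAt
  refine (HasDerivAt.of_local_left_inverse (continuousAt_invFunOn_of_injOn hU hf hinj hz) h1 hd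
    ?_).differentiableAt
  filter_upwards [(isOpen_image_of_injOn hU hf hinj).mem_nhds (mem_image_of_mem f hz)] with y hy
  exact Function.invFunOn_eq hy

theorem differentiableAt_invFunOn_of_injOn {U : Set ℂ} (hU : IsOpen U) {f : ℂ → ℂ}
    (hf : DifferentiableOn ℂ f U) (hinj : InjOn f U) {z : ℂ} (hz : z ∈ U) :
    DifferentiableAt ℂ (Function.invFunOn f U) (f z) := by
  refine (Complex.analyticAt_of_differentiable_on_punctured_nhds_of_continuousAt ?_
    (continuousAt_invFunOn_of_injOn hU hf hinj hz)).differentiableAt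
  have h1 := eventually_deriv_ne_zero_of_injOn hU hf hinj hz
  rw [eventually_nhdsWithin_iff] at h1 ⊢
  refine nhds_le_map_of_injOn hU hf hinj hz ?_
  rw [mem_map]
  filter_upwards [h1, hU.mem_nhds hz] with w hw hwU hne
  refine differentiableAt_invFunOn_of_deriv_ne_zero hU hf hinj hwU (hw ?_)
  rintro rfl
  exact hne rfl

theorem exists_holomorphic_inverse {U : Set ℂ} (hU : IsOpen U) {f : ℂ → ℂ}
    (hf : DifferentiableOn ℂ f U) (hinj : InjOn f U) :
    IsOpen (f '' U) ∧ ∃ g : ℂ → ℂ, DifferentiableOn ℂ g (f '' U) ∧ ∀ z ∈ U, g (f z) = z := by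
  refine ⟨isOpen_image_of_injOn hU hf hinj, Function.invFunOn f U, ?_,
    fun z hz => hinj.leftInvOn_invFunOn hz⟩
  rintro _ ⟨z, hz, rfl⟩
  exact (differentiableAt_invFunOn_of_injOn hU hf hinj hz).differentiableWithinAt

theorem deriv_ne_zero_of_injOn {U : Set ℂ} (hU : IsOpen U) {f : ℂ → ℂ}
    (hf : DifferentiableOn ℂ f U) (hinj : InjOn f U) {z : ℂ} (hz : z ∈ U) : deriv f z ≠ 0 := by
  intro h0
  have hg := (differentiableAt_invFunOn_of_injOn hU hf hinj hz).hasDerivAt
  have hfz := (hf.differentiableAt (hU.mem_nhds hz)).hasDerivAt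
  have h1 := hg.comp z hfz
  rw [h0, mul_zero] at h1
  have h2 : HasDerivAt (Function.invFunOn f U ∘ f) 1 z := by
    refine (hasDerivAt_id z).congr_of_eventuallyEq ?_
    filter_upwards [hU.mem_nhds hz] with w hw using hinj.leftInvOn_invFunOn hw
  exact one_ne_zero (h2.unique h1)

end Crest.Agent.Lib.RMT
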