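import Mathlib

/-!
# Montel's theorem (ultrafilter form) and Hurwitz's theorem for injective maps

Author: helper76.
-/

open Metric Set Filter
open scoped Topology

namespace Crest.Agent.Lib.RMT

/-- **Montel**, ultrafilter form: a family of holomorphic maps `U → closedBall 0 1` converges
locally uniformly along every ultrafilter. -/
theorem montel_ultrafilter {ι : Type*} {U : Set ℂ} (hU : IsOpen U) (F : ι → ℂ → ℂ)
    (hF : ∀ n, DifferentiableOn ℂ (F n) U) (hb : ∀ n, MapsTo (F n) U (closedBall 0 1))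
    (𝒰 : Ultrafilter ι) :
    ∃ f : ℂ → ℂ, TendstoLocallyUniformlyOn F f 𝒰 U := by
  have hlim : ∀ z : ℂ, ∃ w : ℂ, z ∈ U → Tendsto (fun n => F n z) 𝒰 (𝓝 w) := by
    intro z
    by_cases hz : z ∈ U
    · obtain ⟨w, -, hw⟩ := (isCompact_closedBall (0 : ℂ) 1).ultrafilter_le_nhds
        (𝒰.map fun n => F n z) (by
          rw [le_principal_iff]
          exact Filter.mem_map.2 (Eventually.of_forall fun n => hb n hz))
      exact ⟨w, fun _ => hw⟩
    · exact ⟨0, fun h => (hz h).elim⟩
  choose f hf using hlim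
  refine ⟨f, ?_⟩
  rw [Metric.tendstoLocallyUniformlyOn_iff]
  intro ε hε x hx
  obtain ⟨R, hR, hRU⟩ := Metric.isOpen_iff.1 hU x hx
  have hlip : ∀ n, ∀ y ∈ ball x R, dist (F n y) (F n x) ≤ 2 / R * dist y x := by
    intro n y hy
    refine Complex.dist_le_div_mul_dist_of_mapsTo_ball ((hF n).mono hRU) ?_ hy
    intro w hw
    have h1 := hb n (hRU hw)
    have h2 := hb n hx
    rw [mem_closedBall] at h1 h2 ⊢
    have := dist_triangle_right (F n w) (F n x) 0
    linarith
  have hlipf : ∀ y ∈ ball x R, dist (f y) (f x) ≤ 2 / R * dist y x := by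
    intro y hy
    exact le_of_tendsto ((hf y (hRU hy)).dist (hf x hx))
      (Eventually.of_forall fun n => hlip n y hy)
  set δ : ℝ := min R (ε * R / 8) with hδ
  have hδpos : 0 < δ := lt_min hR (by positivity)
  refine ⟨ball x δ, mem_nhdsWithin_of_mem_nhds (ball_mem_nhds x hδpos), ?_⟩
  have hev : ∀ᶠ n in (𝒰 : Filter ι), dist (F n x) (f x) < ε / 4 :=
    (Metric.tendsto_nhds.1 (hf x hx)) (ε / 4) (by positivity)
  filter_upwards [hev] with n hn y hy
  have hyR : y ∈ ball x R := ball_subset_ball (min_le_left _ _) hy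
  have hyd : dist y x < ε * R / 8 := lt_of_lt_of_le (mem_ball.1 hy) (min_le_right _ _)
  have hsmall : 2 / R * dist y x ≤ ε / 4 := by
    have : 2 / R * dist y x ≤ 2 / R * (ε * R / 8) :=
      mul_le_mul_of_nonneg_left hyd.le (by positivity)
    refine this.trans (le_of_eq ?_)
    field_simp
    ring
  have h1 := hlip n y hyR
  have h2 := hlipf y hyR
  have h3 : dist (f y) (F n y) ≤ dist (f y) (f x) + dist (F n x) (f x) + dist (F n y) (F n x) := by
    have a1 := dist_triangle (f y) (f x) (F n y)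
    have a2 := dist_triangle (f x) (F n x) (F n y)
    rw [dist_comm (f x) (F n x), dist_comm (F n x) (F n y)] at a2
    linarith
  linarith

/-- **Hurwitz**: a locally uniform limit of zero-free holomorphic functions that vanishes at a
point vanishes near that point. -/
theorem hurwitz_zero {ι : Type*} {p : Filter ι} [p.NeBot] {U : Set ℂ} (hU : IsOpen U)
    {F : ι → ℂ → ℂ} {f : ℂ → ℂ} (hF : ∀ n, DifferentiableOn ℂ (F n) U)
    (hne : ∀ n, ∀ z ∈ U, F n z ≠ 0) (hlim : TendstoLocallyUniformlyOn F f p U)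
    {b : ℂ} (hb : b ∈ U) (hfb : f b = 0) : ∀ᶠ z in 𝓝 b, f z = 0 := by
  have hfd : DifferentiableOn ℂ f U := hlim.differentiableOn (Eventually.of_forall hF) hU
  have hfa : AnalyticAt ℂ f b := hfd.analyticAt (hU.mem_nhds hb)
  rcases hfa.eventually_eq_zero_or_eventually_ne_zero with h | h
  · exact h
  exfalso
  rw [eventually_nhdsWithin_iff] at h
  obtain ⟨r, hr, hrs⟩ := Metric.nhds_basis_closedBall.mem_iff.1 (h.and (hU.mem_nhds hb))
  have hcl : closedBall b r ⊆ U := fun z hz => (hrs hz).2
  have hsph : sphere b r ⊆ U := sphere_subset_closedBall.trans hcl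
  have hfne : ∀ z ∈ sphere b r, f z ≠ 0 := by
    intro z hz
    refine (hrs (sphere_subset_closedBall hz)).1 ?_
    intro hzb
    rw [mem_singleton_iff.1 hzb, mem_sphere, dist_self] at hz
    exact hr.ne hz
  obtain ⟨z₁, hz₁, hmin⟩ := (isCompact_sphere b r).exists_isMinOn
    (NormedSpace.sphere_nonempty.2 hr.le) ((hfd.continuousOn.mono hsph).norm)
  set m : ℝ := ‖f z₁‖ with hm
  have hmpos : 0 < m := norm_pos_iff.2 (hfne z₁ hz₁)
  have hunif : TendstoUniformlyOn F f p (closedBall b r) :=
    (tendstoLocallyUniformlyOn_iff_forall_isCompact hU).1 hlim _ hcl (isCompact_closedBall b r)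
  obtain ⟨n, hn⟩ := ((Metric.tendstoUniformlyOn_iff.1 hunif) (m / 2) (by positivity)).exists
  have hd : DiffContOnCl ℂ (fun z => (F n z)⁻¹) (ball b r) := by
    apply DifferentiableOn.diffContOnCl
    rw [closure_ball b hr.ne']
    exact ((hF n).mono hcl).inv fun z hz => hne n z (hcl hz)
  have hbound : ‖(F n b)⁻¹‖ ≤ (m / 2)⁻¹ := by
    refine Complex.norm_le_of_forall_mem_frontier_norm_le isBounded_ball hd ?_
      (subset_closure (mem_ball_self hr))
    intro z hz
    rw [frontier_ball b hr.ne'] at hz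
    have h1 := hn z (sphere_subset_closedBall hz)
    have h2 : m ≤ ‖f z‖ := hmin hz
    rw [dist_eq_norm] at h1
    have h3 : ‖f z‖ ≤ ‖f z - F n z‖ + ‖F n z‖ := by
      simpa using norm_add_le (f z - F n z) (F n z)
    rw [norm_inv]
    exact inv_anti₀ (by positivity) (by linarith)
  have h4 := hn b (mem_closedBall_self hr.le)
  rw [hfb, dist_zero_left] at h4
  rw [norm_inv] at hbound
  have h5 : 0 < ‖F n b‖ := norm_pos_iff.2 (hne n b hb)
  have := (inv_le_inv₀ h5 (by positivity)).1 hbound
  linarith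

/-- **Hurwitz**: a locally uniform limit of injective holomorphic maps on a connected open set is
constant or injective. -/
theorem hurwitz_injOn {ι : Type*} {p : Filter ι} [p.NeBot] {U : Set ℂ} (hU : IsOpen U)
    (hUc : IsPreconnected U) {F : ι → ℂ → ℂ} {f : ℂ → ℂ} (hF : ∀ n, DifferentiableOn ℂ (F n) U)
    (hinj : ∀ n, InjOn (F n) U) (hlim : TendstoLocallyUniformlyOn F f p U) :
    (∃ w, ∀ z ∈ U, f z = w) ∨ InjOn f U := by
  by_cases h : InjOn f U
  · exact Or.inr h
  left
  simp only [InjOn, not_forall] at h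
  obtain ⟨a, ha, b, hb, hab, hne⟩ := h
  have hfd : DifferentiableOn ℂ f U := hlim.differentiableOn (Eventually.of_forall hF) hU
  have hV : IsOpen (U \ {a}) := hU.sdiff isClosed_singleton
  have hlim' : TendstoLocallyUniformlyOn (fun n z => F n z - F n a) (fun z => f z - f a) p
      (U \ {a}) := by
    have h1 : TendstoLocallyUniformlyOn F f p (U \ {a}) := hlim.mono sdiff_subset
    have h2 : TendstoLocallyUniformlyOn (fun n (_ : ℂ) => F n a) (fun _ => f a) p (U \ {a}) :=
      ((hlim.tendsto_at ha).tendstoUniformlyOn_const _).tendstoLocallyUniformlyOn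
    exact h1.sub h2
  have hz := hurwitz_zero (p := p) hV (F := fun n z => F n z - F n a) (f := fun z => f z - f a)
    (fun n => ((hF n).mono sdiff_subset).sub_const _)
    (fun n z hz h0 => hz.2 (hinj n hz.1 ha (sub_eq_zero.1 h0))) hlim'
    (b := b) ⟨hb, fun h => hne (mem_singleton_iff.1 h).symm⟩ (by simp [hab])
  refine ⟨f a, ?_⟩
  have han : AnalyticOnNhd ℂ f U := hfd.analyticOnNhd hU
  exact han.eqOn_of_preconnected_of_eventuallyEq analyticOnNhd_const hUc hb
    (by filter_upwards [hz] with z hz using sub_eq_zero.1 hz)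

end Crest.Agent.Lib.RMT
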