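import Mathlib
import Crest.Agent.Lib.RMT.Montel

/-!
# The Riemann mapping theorem

Author: helper76.  Steps 1 and 2 are copied from Mathlib's (private) partial results.
-/

open Metric Set Filter Function Complex
open scoped Topology Pointwise ComplexConjugate

namespace Crest.Agent.Lib.RMT

/-- Step 1 (from Mathlib). -/
theorem rmt_step1 {U : Set ℂ} (hUo : IsOpen U)
    (hUc : IsSimplyConnected U) (hU : U ≠ univ) :
    ∃ f : ℂ → ℂ, Injective f ∧ ¬Dense (f '' U) ∧ ∀ z ∈ U, deriv f z ≠ 0 := by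
  wlog hU₀ : 0 ∉ U
  · rw [ne_univ_iff_exists_notMem] at hU
    rcases hU with ⟨a, ha⟩
    specialize this (hUo.vadd (-a)) (by simpa) (by simp [hU])
      (by simpa [mem_vadd_set_iff_neg_vadd_mem])
    rcases this with ⟨f, hf_inj, hf_dense, hdf⟩
    refine ⟨f ∘ (-a + ·), hf_inj.comp (add_right_injective (-a)), ?_, fun z hz ↦ ?_⟩
    · simpa only [← image_vadd, Set.image_image] using! hf_dense
    · simpa [Function.comp_def, deriv_comp_const_add] using hdf (-a + z) (mapsTo_image _ _ hz)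
  rcases exists_continuousOn_pow_eq hUc hUo continuousOn_id (by rwa [image_id]) two_ne_zero
    with ⟨f, hfc, hf_inv⟩
  replace hf_inv : LeftInverse (· ^ 2) f := hf_inv
  have hf₀ : ∀ z ∈ U, f z ≠ 0 := by
    intro z hz hfz
    simpa [hfz, (ne_of_mem_of_not_mem hz hU₀).symm] using hf_inv z
  have hdf : ∀ z ∈ U, HasStrictDerivAt f (2 * f z)⁻¹ z := by
    intro z hz
    apply HasStrictDerivAt.of_local_left_inverse
    · exact hfc.continuousAt <| hUo.mem_nhds hz
    · simpa using hasStrictDerivAt_pow 2 (f z)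
    · simpa using hf₀ z hz
    · exact .of_forall hf_inv
  refine ⟨f, hf_inv.injective, ?_, fun z hz ↦ ?_⟩
  · simp only [Dense, not_forall, mem_closure_iff_frequently, not_frequently]
    rcases hUc.nonempty with ⟨x, hx⟩
    use -f x
    have : f '' U ∈ 𝓝 (f x) := by
      rw [← (hdf x hx).map_nhds_eq (by simpa using hf₀ x hx)]
      exact Filter.image_mem_map <| hUo.mem_nhds hx
    rw [nhds_neg, eventually_neg]
    filter_upwards [this]
    rintro _ ⟨a, ha, rfl⟩ ⟨b, hb, hab⟩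
    obtain rfl : a = b := by
      rw [← hf_inv b, hab]
      simp [hf_inv a]
    refine hf₀ a ha ?_
    linear_combination hab / 2
  · simpa [(hdf z hz).hasDerivAt.deriv] using hf₀ z hz

/-- Step 2 (from Mathlib). -/
theorem rmt_step2 {U : Set ℂ} (hUo : IsOpen U)
    (hUc : IsSimplyConnected U) (hU : U ≠ univ) :
    ∃ f : ℂ → ℂ, MapsTo f U (ball 0 1) ∧ InjOn f U ∧ ∀ z ∈ U, deriv f z ≠ 0 := by
  rcases rmt_step1 hUo hUc hU with ⟨f, hf_inj, hfd, hdf⟩
  obtain ⟨x, ε, hε₀, hε⟩ : ∃ (x : ℂ) (ε : ℝ), 0 < ε ∧ ∀ a ∈ U, ε < dist (f a) x := by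
    simpa [Dense, mem_closure_iff_nhds_basis Metric.nhds_basis_closedBall] using hfd
  have hfx : ∀ z ∈ U, f z ≠ x := fun z hz ↦ by simpa using hε₀.trans (hε z hz)
  use fun z ↦ ε / (f z - x)
  refine ⟨?mapsTo, ?injOn, ?deriv⟩
  case mapsTo =>
    intro z hz
    rw [mem_ball_zero_iff, norm_div, norm_real, Real.norm_of_nonneg hε₀.le, div_lt_one₀]
    · simpa [dist_eq_norm] using hε z hz
    · simpa [sub_eq_zero] using hfx z hz
  case injOn =>
    intro z hz w hw heq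
    simpa [div_eq_mul_inv, hε₀.ne', hf_inj.eq_iff] using heq
  case deriv =>
    intro z hz
    have hdz : DifferentiableAt ℂ f z := differentiableAt_of_deriv_ne_zero (hdf z hz)
    rw [(hasDerivAt_const _ _).fun_div (hdz.hasDerivAt.sub_const _) _ |>.deriv] <;>
      simp [*, ne_of_gt, sub_eq_zero]

/-- The disc automorphism `z ↦ (z - a) / (1 - conj a * z)`. -/
noncomputable def mob (a z : ℂ) : ℂ := (z - a) / (1 - conj a * z)

theorem mob_den_ne {a z : ℂ} (ha : ‖a‖ < 1) (hz : ‖z‖ < 1) : 1 - conj a * z ≠ 0 := by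
  intro h
  have h1 : conj a * z = 1 := by linear_combination -h
  have h2 : ‖conj a * z‖ = 1 := by rw [h1, norm_one]
  rw [norm_mul, norm_conj] at h2
  nlinarith [norm_nonneg a, norm_nonneg z]

theorem norm_mob_lt {a z : ℂ} (ha : ‖a‖ < 1) (hz : ‖z‖ < 1) : ‖mob a z‖ < 1 := by
  have hd := mob_den_ne ha hz
  rw [mob, norm_div, div_lt_one (norm_pos_iff.2 hd)]
  have ha2 : ‖a‖ ^ 2 < 1 := by nlinarith [norm_nonneg a]
  have hz2 : ‖z‖ ^ 2 < 1 := by nlinarith [norm_nonneg z]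
  refine lt_of_pow_lt_pow_left₀ 2 (norm_nonneg _) ?_
  rw [Complex.sq_norm, Complex.sq_norm, Complex.normSq_apply, Complex.normSq_apply] at *
  simp only [sub_re, sub_im, one_re, one_im, mul_re, mul_im, conj_re, conj_im]
  nlinarith [mul_pos (sub_pos.2 ha2) (sub_pos.2 hz2)]

theorem one_sub_conj_mul_self (a : ℂ) : 1 - conj a * a = ((1 - ‖a‖ ^ 2 : ℝ) : ℂ) := by
  rw [Complex.conj_mul']
  push_cast
  ring

theorem mob_inj {a z w : ℂ} (ha : ‖a‖ < 1) (hz : ‖z‖ < 1) (hw : ‖w‖ < 1)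
    (h : mob a z = mob a w) : z = w := by
  rw [mob, mob, div_eq_div_iff (mob_den_ne ha hz) (mob_den_ne ha hw)] at h
  have h1 : (z - w) * (1 - conj a * a) = 0 := by linear_combination h
  rcases mul_eq_zero.1 h1 with h2 | h2
  · exact sub_eq_zero.1 h2
  · exact (mob_den_ne ha ha h2).elim

theorem mob_self (a : ℂ) : mob a a = 0 := by simp [mob]

theorem hasDerivAt_mob {a z : ℂ} (ha : ‖a‖ < 1) (hz : ‖z‖ < 1) :
    HasDerivAt (mob a) ((1 - conj a * a) / (1 - conj a * z) ^ 2) z := by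
  have hd := mob_den_ne ha hz
  have h1 : HasDerivAt (fun z : ℂ => z - a) 1 z := (hasDerivAt_id z).sub_const a
  have h2 : HasDerivAt (fun z : ℂ => 1 - conj a * z) (-(conj a)) z := by
    simpa using ((hasDerivAt_id z).const_mul (conj a)).const_sub 1
  have h3 := h1.fun_div h2 hd
  have h4 : (1 - conj a * a) / (1 - conj a * z) ^ 2 =
      (1 * (1 - conj a * z) - (z - a) * -(conj a)) / (1 - conj a * z) ^ 2 := by
    congr 1
    ring
  rw [h4]
  exact h3

/-- The competing family. -/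
structure Adm (U : Set ℂ) (z₀ : ℂ) (f : ℂ → ℂ) : Prop where
  diff : DifferentiableOn ℂ f U
  inj : InjOn f U
  maps : MapsTo f U (ball 0 1)
  zero : f z₀ = 0

/-- Post-composing with the disc automorphism that moves `h z₀` to the origin. -/
theorem adm_mob {U : Set ℂ} {z₀ : ℂ} (hz₀ : z₀ ∈ U) {h : ℂ → ℂ}
    (hd : DifferentiableOn ℂ h U) (hi : InjOn h U) (hm : MapsTo h U (ball 0 1)) :
    Adm U z₀ (fun z => mob (h z₀) (h z)) := by
  have ha : ‖h z₀‖ < 1 := mem_ball_zero_iff.1 (hm hz₀)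
  refine ⟨fun z hz => ?_, fun z hz w hw hzw => ?_, fun z hz => ?_, mob_self _⟩
  · exact (hasDerivAt_mob ha
      (mem_ball_zero_iff.1 (hm hz))).differentiableAt.comp_differentiableWithinAt z (hd z hz)
  · exact hi hz hw (mob_inj ha (mem_ball_zero_iff.1 (hm hz)) (mem_ball_zero_iff.1 (hm hw)) hzw)
  · exact mem_ball_zero_iff.2 (norm_mob_lt ha (mem_ball_zero_iff.1 (hm hz)))

theorem norm_deriv_mob_comp {z₀ h' : ℂ} {h : ℂ → ℂ} (hd : HasDerivAt h h' z₀)
    (ha : ‖h z₀‖ < 1) :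
    ‖deriv (fun z => mob (h z₀) (h z)) z₀‖ = ‖h'‖ / (1 - ‖h z₀‖ ^ 2) := by
  have h1 := (hasDerivAt_mob ha ha).comp z₀ hd
  have h2 : deriv (fun z => mob (h z₀) (h z)) z₀ = _ := h1.deriv
  have hpos : 0 < 1 - ‖h z₀‖ ^ 2 := by nlinarith [norm_nonneg (h z₀)]
  rw [h2, one_sub_conj_mul_self, norm_mul, norm_div, norm_pow, norm_real,
    Real.norm_of_nonneg hpos.le]
  field_simp

/-- The square root trick: a non-surjective member of the family can be improved. -/
theorem adm_improve {U : Set ℂ} (hUo : IsOpen U) (hUc : IsSimplyConnected U) {z₀ : ℂ}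
    (hz₀ : z₀ ∈ U) {f : ℂ → ℂ} (hf : Adm U z₀ f) (hf' : deriv f z₀ ≠ 0) {w : ℂ} (hw : ‖w‖ < 1)
    (hwf : w ∉ f '' U) : ∃ g, Adm U z₀ g ∧ ‖deriv f z₀‖ < ‖deriv g z₀‖ := by
  have hfn : ∀ z ∈ U, ‖f z‖ < 1 := fun z hz => mem_ball_zero_iff.1 (hf.maps hz)
  set φ : ℂ → ℂ := fun z => mob w (f z) with hφ
  have hφd : ∀ z ∈ U, HasDerivAt φ
      ((1 - conj w * w) / (1 - conj w * f z) ^ 2 * deriv f z) z := fun z hz =>
    (hasDerivAt_mob hw (hfn z hz)).comp z (hf.diff.differentiableAt (hUo.mem_nhds hz)).hasDerivAt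
  have hφne : ∀ z ∈ U, φ z ≠ 0 := by
    intro z hz h0
    apply hwf
    refine ⟨z, hz, mob_inj hw (hfn z hz) hw ?_⟩
    rw [mob_self]
    exact h0
  obtain ⟨h, hhc, hh⟩ := exists_continuousOn_pow_eq hUc hUo (g := φ)
    (fun z hz => (hφd z hz).continuousAt.continuousWithinAt)
    (by rintro ⟨z, hz, h0⟩; exact hφne z hz h0) two_ne_zero
  have hhne : ∀ z ∈ U, h z ≠ 0 := by
    intro z hz h0
    apply hφne z hz
    rw [← hh z, h0]
    simp
  have hhd : ∀ z ∈ U, HasDerivAt h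
      (((1 - conj w * w) / (1 - conj w * f z) ^ 2 * deriv f z) / (2 * h z)) z := by
    intro z hz
    refine HasDerivAt.of_comp_left (f := fun u : ℂ => u ^ 2) (hhc.continuousAt (hUo.mem_nhds hz))
      (by simpa using hasDerivAt_pow 2 (h z)) (hφd z hz) (by simpa using hhne z hz) ?_
    exact Eventually.of_forall fun u => hh u
  have hhn : ∀ z ∈ U, ‖h z‖ < 1 := by
    intro z hz
    have h1 : ‖h z‖ ^ 2 < 1 := by
      rw [← norm_pow, hh z]
      exact norm_mob_lt hw (hfn z hz)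
    nlinarith [norm_nonneg (h z)]
  have hhi : InjOn h U := by
    intro a ha b hb hab
    apply hf.inj ha hb
    apply mob_inj hw (hfn a ha) (hfn b hb)
    have h1 := hh a
    have h2 := hh b
    rw [hab, h2] at h1
    exact h1.symm
  refine ⟨_, adm_mob hz₀ (fun z hz => (hhd z hz).differentiableAt.differentiableWithinAt) hhi
    (fun z hz => mem_ball_zero_iff.2 (hhn z hz)), ?_⟩
  rw [norm_deriv_mob_comp (hhd z₀ hz₀) (hhn z₀ hz₀)]
  have ht2 : ‖h z₀‖ ^ 2 = ‖w‖ := by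
    rw [← norm_pow, hh z₀]
    simp [hφ, mob, hf.zero]
  have htpos : 0 < ‖h z₀‖ := norm_pos_iff.2 (hhne z₀ hz₀)
  have ht1 := hhn z₀ hz₀
  have hDpos : 0 < ‖deriv f z₀‖ := norm_pos_iff.2 hf'
  have hwpos : 0 < 1 - ‖w‖ ^ 2 := by nlinarith [norm_nonneg w]
  rw [one_sub_conj_mul_self, hf.zero, mul_zero, sub_zero, one_pow, div_one, norm_div, norm_mul,
    norm_mul, norm_real, Real.norm_of_nonneg hwpos.le, ← ht2]
  set t := ‖h z₀‖
  set D := ‖deriv f z₀‖
  have h1t : 0 < 1 - t ^ 2 := by nlinarith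
  have h2 : ‖(2 : ℂ)‖ = 2 := by simp
  rw [h2, lt_div_iff₀ h1t, lt_div_iff₀ (by positivity)]
  have h3 : 0 < D * (1 - t ^ 2) * (1 - t) ^ 2 := by
    have : 0 < 1 - t := by linarith
    positivity
  nlinarith

/-- **Riemann mapping theorem**. -/
theorem riemann_mapping {U : Set ℂ} (hUo : IsOpen U) (hUc : IsSimplyConnected U) (hU : U ≠ univ)
    {z₀ : ℂ} (hz₀ : z₀ ∈ U) :
    ∃ f : ℂ → ℂ, DifferentiableOn ℂ f U ∧ InjOn f U ∧ f '' U = ball 0 1 ∧ f z₀ = 0 := by
  have hUp : IsPreconnected U := hUc.isPathConnected.isConnected.isPreconnected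
  -- the family has a member with non-zero derivative
  obtain ⟨f₁, hf₁, hf₁'⟩ : ∃ f, Adm U z₀ f ∧ 0 < ‖deriv f z₀‖ := by
    obtain ⟨h, hm, hi, hd⟩ := rmt_step2 hUo hUc hU
    have hdd : ∀ z ∈ U, DifferentiableAt ℂ h z := fun z hz =>
      differentiableAt_of_deriv_ne_zero (hd z hz)
    refine ⟨_, adm_mob hz₀ (fun z hz => (hdd z hz).differentiableWithinAt) hi hm, ?_⟩
    have ha : ‖h z₀‖ < 1 := mem_ball_zero_iff.1 (hm hz₀)
    rw [norm_deriv_mob_comp (hdd z₀ hz₀).hasDerivAt ha]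
    have : 0 < 1 - ‖h z₀‖ ^ 2 := by nlinarith [norm_nonneg (h z₀)]
    have := norm_pos_iff.2 (hd z₀ hz₀)
    positivity
  set S : Set ℝ := {t | ∃ f, Adm U z₀ f ∧ ‖deriv f z₀‖ = t} with hS
  have hSne : S.Nonempty := ⟨_, f₁, hf₁, rfl⟩
  obtain ⟨R, hR, hRU⟩ := Metric.isOpen_iff.1 hUo z₀ hz₀
  have hSbd : BddAbove S := by
    refine ⟨1 / R, ?_⟩
    rintro t ⟨f, hf, rfl⟩
    refine Complex.norm_deriv_le_div_of_mapsTo_ball (hf.diff.mono hRU) ?_ hR
    intro z hz
    rw [hf.zero]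
    exact ball_subset_closedBall (hf.maps (hRU hz))
  obtain ⟨u, -, hu, huS⟩ := exists_seq_tendsto_sSup hSne hSbd
  choose F hF hFu using huS
  obtain ⟨f, hlim⟩ := montel_ultrafilter hUo F (fun n => (hF n).diff)
    (fun n z hz => ball_subset_closedBall ((hF n).maps hz)) (Ultrafilter.of atTop)
  have hle : ((Ultrafilter.of atTop : Ultrafilter ℕ) : Filter ℕ) ≤ atTop := Ultrafilter.of_le _
  have hfd : DifferentiableOn ℂ f U :=
    hlim.differentiableOn (Eventually.of_forall fun n => (hF n).diff) hUo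
  have hderiv : ‖deriv f z₀‖ = sSup S := by
    have h1 := ((hlim.deriv (Eventually.of_forall fun n => (hF n).diff) hUo).tendsto_at hz₀).norm
    have h2 : Tendsto (fun n => ‖(deriv ∘ F) n z₀‖) (Ultrafilter.of atTop : Ultrafilter ℕ)
        (𝓝 (sSup S)) := by
      refine (hu.mono_left hle).congr fun n => ?_
      simp [hFu n]
    exact tendsto_nhds_unique h1 h2
  have hpos : 0 < ‖deriv f z₀‖ := by
    rw [hderiv]
    exact hf₁'.trans_le (le_csSup hSbd ⟨f₁, hf₁, rfl⟩)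
  have hnc : ¬ ∃ w, ∀ z ∈ U, f z = w := by
    rintro ⟨w, hw⟩
    have : f =ᶠ[𝓝 z₀] fun _ => w := by
      filter_upwards [hUo.mem_nhds hz₀] with z hz using hw z hz
    rw [this.deriv_eq] at hpos
    simp at hpos
  have hfi : InjOn f U :=
    (hurwitz_injOn hUo hUp (fun n => (hF n).diff) (fun n => (hF n).inj) hlim).resolve_left hnc
  have hf0 : f z₀ = 0 := by
    have h1 := hlim.tendsto_at hz₀
    simp only [(hF _).zero] at h1
    exact tendsto_nhds_unique h1 tendsto_const_nhds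
  have hfm : MapsTo f U (ball 0 1) := by
    have hopen : IsOpen (f '' U) :=
      ((hfd.analyticOnNhd hUo).is_constant_or_isOpen hUp).resolve_left hnc U Subset.rfl hUo
    have hsub : f '' U ⊆ closedBall 0 1 := by
      rintro _ ⟨z, hz, rfl⟩
      exact isClosed_closedBall.mem_of_tendsto (hlim.tendsto_at hz)
        (Eventually.of_forall fun n => ball_subset_closedBall ((hF n).maps hz))
    have := interior_maximal hsub hopen
    rw [interior_closedBall _ one_ne_zero] at this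
    exact fun z hz => this (mem_image_of_mem f hz)
  have hadm : Adm U z₀ f := ⟨hfd, hfi, hfm, hf0⟩
  refine ⟨f, hfd, hfi, Subset.antisymm hfm.image_subset fun w hw => ?_, hf0⟩
  by_contra hwf
  obtain ⟨g, hg, hlt⟩ := adm_improve hUo hUc hz₀ hadm (norm_pos_iff.1 hpos)
    (mem_ball_zero_iff.1 hw) hwf
  have : ‖deriv g z₀‖ ≤ sSup S := le_csSup hSbd ⟨g, hg, rfl⟩
  linarith

end Crest.Agent.Lib.RMT
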